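import Vale.Agent.P097F.SE.Top
import Vale.Agent.P097F.S.Defs
import Vale.Agent.P097F.N.Sta
import Vale.Agent.P097EE.Up

/-!
# P097F/SE: the machine with its concrete data is contradictory
-/

set_option linter.all false

noncomputable section

namespace Vale.Agent.P097F.SE

open Filter Topology Set Metric Complex Vale.Agent.P097F.N Vale.Agent.P097F.S
open Vale.Agent.P097EE (C2 Spec_E2 NearE)

/-- the output of layer C, without the local data of the obstacles: the true state `Z (s, ζ)` is the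
state of the family `F` at `W = v + α ζ`, `x = x₀ + ε W s` -/
structure LC (𝒰 : Filter ℕ) (ε : ℕ → ℝ) (θ h : ℕ → ℂ → ℂ) (U : ℕ → Set ℂ) (a L : ℝ)
    (v H : ℕ → ℝ) (F : ℕ → C2 → ℂ) (K C₁ C₂ : ℝ) (ς : ℕ → ℝ) (D : ℕ → Md) (α x₀ : ℕ → ℂ) :
    Prop where
  eq : ∀ n, ε n = ep (ς n)
  s0 : Tendsto ς 𝒰 (𝓝 0)
  c2 : 0 ≤ C₂
  KC : 6 * C₂ + 2 * C₁ + 4 ≤ K
  ma : ∀ᶠ n in 𝒰, Mach K (ς n) (ep (ς n)) (D n) ∧ (D n).C₁ = C₁ ∧ (D n).C₂ = C₂ ∧
    6 * C₂ + 2 * C₁ + 4 ≤ (D n).G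
  con : Con 𝒰 K ς D θ h U
  zf : ∀ᶠ n in 𝒰, α n ≠ 0 ∧ (∀ s ζ : ℂ, (D n).Z (s, ζ) =
      stt (ε n) (F n (v n + α n * ζ, x₀ n + ε n * (v n + α n * ζ) * (s - 1)))
        (F n (v n + α n * ζ, x₀ n + ε n * (v n + α n * ζ) * s))) ∧
    ∀ i, (D n).Gap i → |(x₀ n).re + ε n * v n * i - a| ≤ L - 1 / 2
  lv : ∀ μ > 0, ∀ᶠ n in 𝒰, |(x₀ n).im + ε n * v n * (D n).m₀ - H n| ≤ μ * ε n

/-- the obstacle `c` is central and near the top -/
def NearAt (𝒰 : Filter ℕ) (lam : ℝ) (ς : ℕ → ℝ) (D : ℕ → Md) (c : ℕ) : Prop :=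
  ∀ᶠ n in 𝒰, c < (D n).M ∧ Ctr (D n) ((D n).hi c) ∧ Ctr (D n) ((D n).lo (c + 1)) ∧
    lam * (|(D n).sl (ep (ς n)) c| + 1) ≤ 1 ∧
    (∀ i : ℤ, (D n).hi c ≤ i → i ≤ (D n).lo (c + 1) → (|(D n).ω * i| + (D n).C₁ + 1) * lam ≤ 2) ∧
    -(8 * l1 (ς n)) ≤ (xi (ς n) (D n) c).im ∧ (xi (ς n) (D n) c).im < 4 * l1 (ς n)

theorem seamE (hE : Spec_E2) (hG : S_GR) (hP : S_GAP) (hF : S_FARG) (hO : S_FARO)
    {𝒰 : Ultrafilter ℕ} {ε : ℕ → ℝ} {θ h Q c U g} {a L T ρ K₀ C W H₀ b₀ K C₁ C₂ K₁ K₂ c₀ : ℝ}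
    {v H b : ℕ → ℝ} {F : ℕ → C2 → ℂ} {F₀ : C2 → ℂ} {ς : ℕ → ℝ} {D : ℕ → Md} {α x₀ : ℕ → ℂ}
    (s : P097Mo.Seq 𝒰 (fun j => (ε j : ℂ)) θ h Q c U g (P097D.Lo 0)) (e0 : ∀ j, 0 < ε j)
    (l : Loc 𝒰 ε θ h U a L T ρ K₀ C v H b W H₀ b₀ F F₀) (W0 : 0 < W)
    (X : LC 𝒰 ε θ h U a L v H F K C₁ C₂ ς D α x₀) (R : Run 𝒰 K K₁ K₂ c₀ (lam C₁ C₂) ς D)
    {β : ℕ} (β3 : 3 ≤ β) (near : ∀ c, NearAt 𝒰 (lam C₁ C₂) ς D c →
      NearE 𝒰 30 (fun n => hh (ς n)) (fun n => KK β (ς n))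
        (CE (lam C₁ C₂) ς D fun n => (D n).hi c) (ZE (lam C₁ C₂) ς D fun n => (D n).hi c)
        (CE (lam C₁ C₂) ς D fun n => (D n).lo (c + 1))
        (ZE (lam C₁ C₂) ς D fun n => (D n).lo (c + 1))) : False := by
  have c2 := X.c2
  have c1 : 0 ≤ C₁ := by
    obtain ⟨n, m, e, -⟩ := X.ma.exists
    exact e ▸ m.num.C1.1
  have q0 : 0 < 6 * C₂ + 2 * C₁ + 4 := by positivity
  have l0 : 0 < lam C₁ C₂ := by unfold lam; positivity
  have l1' : lam C₁ C₂ * (6 * C₂ + 2 * C₁ + 4) = 1 := by unfold lam; field_simp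
  have ctr : ∀ᶠ n in (𝒰 : Filter ℕ), ∀ i, (D n).Gap i → Cen C₁ C₂ (D n) i → Ctr (D n) i :=
    X.ma.mono fun n ⟨_, _, e, G⟩ i a b => ⟨a, by unfold Cen at b; rw [e]; linarith⟩
  obtain ⟨i, hi, x, μ, M, -, μ0, -, M0, out⟩ := top hE 𝒰 (D := D) (ς := ς) (ε := fun n => ep (ς n))
    (K := K) (C₁ := C₁) (C₂ := C₂) (A := 30) (h := fun n => hh (ς n)) (w := fun n => ww (ς n))
    (K' := fun n => KK β (ς n)) (S := fun n => SS K₂ (ς n))
    (CE := fun n i => CE (lam C₁ C₂) ς D (fun _ => i) n)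
    (ZE := fun n i => ZE (lam C₁ C₂) ς D (fun _ => i) n) c1 c2
    (X.ma.mono fun n ⟨m, _, e, G⟩ => ⟨m, e, by
      have N := m.num
      have n1 : (1 : ℝ) ≤ (D n).n := by
        have a1 : 0 < (D n).H := by
          by_contra q
          have : K * (ep (ς n) * (D n).H) ≤ 0 := mul_nonpos_of_nonneg_of_nonpos (by linarith [N.K1])
            (mul_nonpos_of_nonneg_of_nonpos (by unfold ep; positivity) (not_lt.1 q))
          linarith [N.H0]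
        have : (0 : ℝ) < (D n).n := by linarith [N.HR, N.Rn]
        exact_mod_cast (show 0 < (D n).n by exact_mod_cast this)
      nlinarith [N.ω0.1, N.ω0.2.2], by linarith⟩)
    (hG 𝒰 K₂ β ς R.K2 (by omega) R.s0 (X.ma.mono fun n m => m.1.num.ς0))
    (fun i om h1 h2 => hP 𝒰 K K₁ K₂ c₀ _ ς D θ h U i om β R X.con β3 h1 (by
      filter_upwards [h2, ctr, X.ma] with n ⟨a1, a2, a3⟩ b ⟨_, e, _⟩
      refine ⟨b _ a1 a2, fun ζ => (a3 ζ).trans (le_of_eq ?_)⟩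
      rw [e]; ring))
    (fun j i i' h1 => hF 𝒰 K K₁ K₂ c₀ _ ς D i i' β R (by omega)
      (h1.mono fun n ⟨a1, a2, a3, a4, _⟩ => ⟨j, a1, a2, a3, a4⟩))
    (fun c h1 => by
      rcases 𝒰.em (fun n => 4 * l1 (ς n) ≤ (xi (ς n) (D n) c).im) with q | q
      · exact Or.inl (hO 𝒰 K K₁ K₂ c₀ _ ς D (fun _ => c) _ _ β R (by omega)
          ((h1.and q).mono fun n ⟨a, b⟩ => ⟨a.1, rfl, rfl, b⟩))
      · refine Or.inr (near c ?_)
        filter_upwards [h1, q, ctr, X.ma, R.ev] with n ⟨a1, a2, a3⟩ b ct ⟨m, e1, e2, _⟩ al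
        have N := m.num
        refine ⟨a1, ct _ ⟨c, a1.le, N.lh c a1.le, le_rfl⟩ a2, ct _ ⟨c + 1, a1, le_rfl, N.lh _ a1⟩ a3,
          ?_, fun i u1 u2 => ?_, ?_, not_le.1 b⟩
        · have p1 := (m.pos c a1).1
          have p2 := abs_sub ((D n).sl (ep (ς n)) c + (D n).ω * (D n).hi c) ((D n).ω * (D n).hi c)
          rw [add_sub_cancel_right] at p2
          unfold Cen at a2
          rw [← l1']
          exact mul_le_mul_of_nonneg_left (by linarith) l0.le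
        · have w1 : (D n).ω * (D n).hi c ≤ (D n).ω * i :=
            mul_le_mul_of_nonneg_left (by exact_mod_cast u1) N.ω0.1.le
          have w2 : (D n).ω * i ≤ (D n).ω * (D n).lo (c + 1) :=
            mul_le_mul_of_nonneg_left (by exact_mod_cast u2) N.ω0.1.le
          unfold Cen at a2 a3
          have w3 : |(D n).ω * i| ≤ 5 * C₂ + 2 * C₁ + 3 :=
            abs_le.2 ⟨by linarith [abs_le.1 a2], by linarith [abs_le.1 a3]⟩
          have : (|(D n).ω * i| + (D n).C₁ + 1) * lam C₁ C₂ ≤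
              2 * (6 * C₂ + 2 * C₁ + 4) * lam C₁ C₂ :=
            mul_le_mul_of_nonneg_right (by rw [e1]; linarith) l0.le
          linarith
        · have := al.lv c a1 0 (by simp; positivity)
          simp only [xi, l1, ep, sub_im, mul_im, I_re, I_im, ofReal_re, ofReal_im, ofReal_zero]
            at this ⊢
          linarith)
  refine P097EE.upU (x := x) (α := fun n => α n * lam C₁ C₂)
    (o := fun n ζ => x₀ n + ε n * (v n + α n * lam C₁ C₂ * ζ) *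
      (i n + I * ((D n).m₀ + (D n).m₁ * (lam C₁ C₂ * ζ)))) s e0 l W0 (fun μ' m0 => ?_) μ0 M0 out
  filter_upwards [X.zf, X.lv μ' m0, hi] with n ⟨a1, a2, a3⟩ a4 a5
  have e' : (ε n : ℂ) ≠ 0 := ofReal_ne_zero.2 (e0 n).ne'
  refine ⟨mul_ne_zero a1 (ofReal_ne_zero.2 l0.ne'), by fun_prop, ?_, ?_,
    Eventually.of_forall fun q => ?_⟩
  · simpa using a3 _ a5.1
  · simpa using a4
  · simp only [ZE, S.pr, Md.Zi, Md.tz, sc, a2, stt, P097EE.pr, ← X.eq n]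
    rw [mul_div_cancel₀ _ e', sub_sub_cancel]
    congr 3 <;> ring

end Vale.Agent.P097F.SE
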