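import Vale.Agent.P097F.N.Defs

/-!
# P097F/SE: the list of stations
-/

set_option linter.all false

noncomputable section

namespace Vale.Agent.P097F.SE

open Filter Topology Set Vale.Agent.P097F.N

/-- every integer of the range lies in a gap or strictly between two gaps -/
theorem locate {D : Md} (i : ℤ) (h0 : D.lo 0 ≤ i) : ∀ M : ℕ, i ≤ D.hi M →
    (∃ j ≤ M, D.lo j ≤ i ∧ i ≤ D.hi j) ∨ ∃ c < M, D.hi c < i ∧ i < D.lo (c + 1)
  | 0, h => Or.inl ⟨0, le_rfl, h0, h⟩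
  | M + 1, h => by
    by_cases a : i ≤ D.hi M
    · exact (locate i h0 M a).imp (fun ⟨j, b, c⟩ => ⟨j, by omega, c⟩)
        fun ⟨j, b, c⟩ => ⟨j, by omega, c⟩
    by_cases b : D.lo (M + 1) ≤ i
    · exact Or.inl ⟨M + 1, le_rfl, b, h⟩
    · exact Or.inr ⟨M, by omega, not_le.1 a, not_le.1 b⟩

/-- two end stations -/
theorem ends {K ς ε g : ℝ} {D : Md} (X : Mach K ς ε D) (g0 : 0 < g) (ω1 : D.ω ≤ 1)
    (C0 : 0 ≤ D.C₂) (gG : g + 1 ≤ D.G) :
    (∃ (i : ℤ) (j : ℕ), j ≤ D.M ∧ D.lo j ≤ i ∧ i ≤ D.hi j ∧ g ≤ -(D.ω * i) ∧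
      -(D.ω * i) ≤ g + 2 * D.C₂ + 1) ∧
    ∃ (i : ℤ) (j : ℕ), j ≤ D.M ∧ D.lo j ≤ i ∧ i ≤ D.hi j ∧ g ≤ D.ω * i ∧
      D.ω * i ≤ g + 2 * D.C₂ + 1 := by
  have N := X.num
  have ω0 := N.ω0.1
  have n0 : 0 ≤ D.ω * D.n := by positivity
  have C1 := N.C1.1
  have e1 : D.ω * (g / D.ω) = g := mul_div_cancel₀ _ ω0.ne'
  have c1 := Int.le_ceil (g / D.ω)
  have c2 := Int.ceil_lt_add_one (g / D.ω)
  have u1 : g ≤ D.ω * ⌈g / D.ω⌉ := by nlinarith
  have u2 : D.ω * ⌈g / D.ω⌉ ≤ g + 1 := by nlinarith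
  have l0 : D.ω * D.lo 0 ≤ -(g + 1) := by linarith [N.FL.1, N.FL.2]
  have l1 : g + 1 ≤ D.ω * D.hi D.M := by linarith [N.FR.1, N.FR.2]
  have cast : ∀ x y : ℤ, D.ω * x ≤ D.ω * y → x ≤ y := fun x y h => by
    exact_mod_cast le_of_mul_le_mul_left h ω0
  have wd : ∀ c < D.M, D.ω * D.lo (c + 1) ≤ D.ω * D.hi c + 2 * D.C₂ := fun c hc => by
    have a := abs_le.1 (X.pos c hc).1
    have b := abs_le.1 (X.pos c hc).2
    linarith
  constructor
  · rcases locate (D := D) (-⌈g / D.ω⌉) (cast _ _ (by push_cast; linarith)) D.M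
      (cast _ _ (by push_cast; linarith)) with ⟨j, a, b, c⟩ | ⟨c, a, b, d⟩
    · exact ⟨_, j, a, b, c, by push_cast; linarith, by push_cast; linarith⟩
    · have b' : D.ω * D.hi c ≤ D.ω * (-⌈g / D.ω⌉ : ℤ) :=
        mul_le_mul_of_nonneg_left (by exact_mod_cast b.le) ω0.le
      have d' : D.ω * (-⌈g / D.ω⌉ : ℤ) ≤ D.ω * D.lo (c + 1) :=
        mul_le_mul_of_nonneg_left (by exact_mod_cast d.le) ω0.le
      push_cast at b' d'
      exact ⟨D.hi c, c, a.le, N.lh c a.le, le_rfl, by linarith, by linarith [wd c a]⟩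
  · rcases locate (D := D) ⌈g / D.ω⌉ (cast _ _ (by linarith)) D.M
      (cast _ _ (by linarith)) with ⟨j, a, b, c⟩ | ⟨c, a, b, d⟩
    · exact ⟨_, j, a, b, c, u1, by linarith⟩
    · have b' : D.ω * D.hi c ≤ D.ω * (⌈g / D.ω⌉ : ℤ) :=
        mul_le_mul_of_nonneg_left (by exact_mod_cast b.le) ω0.le
      have d' : D.ω * (⌈g / D.ω⌉ : ℤ) ≤ D.ω * D.lo (c + 1) :=
        mul_le_mul_of_nonneg_left (by exact_mod_cast d.le) ω0.le
      exact ⟨D.lo (c + 1), c + 1, a, le_rfl, N.lh _ a, by linarith, by linarith [wd c a]⟩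

theorem mono_hi {K ς ε : ℝ} {D : Md} (N : Num K ς ε D) {j : ℕ} :
    ∀ j', j < j' → j' ≤ D.M → D.hi j < D.lo j'
  | 0, h, _ => by omega
  | j' + 1, h, h' => by
    rcases Nat.lt_succ_iff_lt_or_eq.1 h with a | a
    · exact (mono_hi N j' a (by omega)).trans_le ((N.lh j' (by omega)).trans (N.hl j' h').le)
    · exact a ▸ N.hl j (by omega)

/-- the stations from `iL` (gap `jL`) to `iR` (gap `jL + d`) -/
def st (D : Md) (iL iR : ℤ) (jL d a : ℕ) : ℤ :=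
  if a = 0 then iL else if a = 2 * d + 1 then iR else
    if a % 2 = 1 then D.hi (jL + a / 2) else D.lo (jL + a / 2)

/-- the end stations -/
structure En (D : Md) (iL iR : ℤ) (jL d : ℕ) : Prop where
  M : jL + d ≤ D.M
  l1 : D.lo jL ≤ iL
  l2 : iL ≤ D.hi jL
  r1 : D.lo (jL + d) ≤ iR
  r2 : iR ≤ D.hi (jL + d)
  lr : iL ≤ iR

variable {K ς ε : ℝ} {D : Md} {iL iR : ℤ} {jL d : ℕ}

theorem st_gap (N : Num K ς ε D) (E : En D iL iR jL d) {a : ℕ} (ha : a ≤ 2 * d + 1) :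
    D.lo (jL + a / 2) ≤ st D iL iR jL d a ∧ st D iL iR jL d a ≤ D.hi (jL + a / 2) := by
  have := E.M
  unfold st
  split_ifs with h1 h2 h3
  · subst h1; exact ⟨E.l1, E.l2⟩
  · rw [show a / 2 = d by omega]; exact ⟨E.r1, E.r2⟩
  · exact ⟨N.lh _ (by omega), le_rfl⟩
  · exact ⟨le_rfl, N.lh _ (by omega)⟩

theorem st_in (N : Num K ς ε D) (E : En D iL iR jL d) {a : ℕ} (ha : a ≤ 2 * d + 1) :
    iL ≤ st D iL iR jL d a ∧ st D iL iR jL d a ≤ iR := by
  have hM := E.M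
  have g := st_gap N E ha
  unfold st at g ⊢
  split_ifs at g ⊢ with h1 h2 h3
  · exact ⟨le_rfl, E.lr⟩
  · exact ⟨E.lr, le_rfl⟩
  · refine ⟨?_, ((mono_hi N (jL + d) (by omega) hM).le).trans E.r1⟩
    rcases Nat.eq_zero_or_pos (a / 2) with z | z
    · rw [z]; exact E.l2
    · exact E.l2.trans ((mono_hi N _ (by omega) (by omega)).le.trans g.1)
  · refine ⟨E.l2.trans (mono_hi N _ (by omega) (by omega)).le, ?_⟩
    rcases (show a / 2 = d ∨ a / 2 < d by omega) with z | z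
    · rw [z]; exact E.r1
    · exact g.2.trans ((mono_hi N (jL + d) (by omega) hM).le.trans E.r1)

theorem st_even (N : Num K ς ε D) (E : En D iL iR jL d) {b : ℕ} (hb : b ≤ d) :
    D.lo (jL + b) ≤ st D iL iR jL d (2 * b) ∧
      st D iL iR jL d (2 * b) ≤ st D iL iR jL d (2 * b + 1) ∧
      st D iL iR jL d (2 * b + 1) ≤ D.hi (jL + b) := by
  have g1 := st_gap N E (a := 2 * b) (by omega)
  have g2 := st_gap N E (a := 2 * b + 1) (by omega)
  rw [show 2 * b / 2 = b by omega] at g1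
  rw [show (2 * b + 1) / 2 = b by omega] at g2
  refine ⟨g1.1, ?_, g2.2⟩
  by_cases h : b = d
  · have : st D iL iR jL d (2 * b + 1) = iR := by simp [st, h]
    rw [this]; exact (st_in N E (by omega)).2
  · have : st D iL iR jL d (2 * b + 1) = D.hi (jL + b) := by
      unfold st
      rw [if_neg (by omega), if_neg (by omega), if_pos (by omega), show (2 * b + 1) / 2 = b by omega]
    rw [this]; exact g1.2

theorem st_odd {b : ℕ} (hb : b < d) : st D iL iR jL d (2 * b + 1) = D.hi (jL + b) ∧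
    st D iL iR jL d (2 * b + 1 + 1) = D.lo (jL + b + 1) := by
  unfold st
  rw [if_neg (by omega), if_neg (by omega), if_pos (by omega), if_neg (by omega), if_neg (by omega),
    if_neg (by omega), show (2 * b + 1) / 2 = b by omega,
    show (2 * b + 1 + 1) / 2 = b + 1 by omega]
  exact ⟨rfl, rfl⟩

/-- a bounded sequence of natural numbers is constant along an ultrafilter -/
theorem const_of_bdd (𝒰 : Ultrafilter ℕ) (j : ℕ → ℕ) (B : ℕ) (h : ∀ᶠ n in (𝒰 : Filter ℕ), j n ≤ B) :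
    ∃ b, ∀ᶠ n in (𝒰 : Filter ℕ), j n = b := by
  obtain ⟨b, -, e⟩ := Ultrafilter.eq_pure_of_finite_mem (f := 𝒰.map j) (Set.finite_Iic B) h
  refine ⟨b, ?_⟩
  have : {b} ∈ 𝒰.map j := by rw [e]; simp
  exact this

end Vale.Agent.P097F.SE
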