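import Vale.Agent.P097F.SE.Sta
import Vale.Agent.P097EE.Asm2

/-!
# P097F/SE: the stations are fed into block E
-/

set_option linter.all false

noncomputable section

namespace Vale.Agent.P097F.SE

open Filter Topology Set Metric Complex Vale.Agent.P097F.N Vale.Agent.P097EE

/-- the scale of the labels: `ζ_N = lam * ζ_E` -/
def lam (C₁ C₂ : ℝ) : ℝ := 1 / (6 * C₂ + 2 * C₁ + 4)

/-- a central time -/
def Cen (C₁ C₂ : ℝ) (D : Md) (i : ℤ) : Prop := |D.ω * i| ≤ 5 * C₂ + 2 * C₁ + 3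

theorem cone_om0 {C₁ C₂ x : ℝ} (c1 : 0 ≤ C₁) (c2 : 0 ≤ C₂) (hx : |x| ≤ 5 * C₂ + 2 * C₁ + 3)
    (ζ : ℂ) : om0 ζ ≤ lam C₁ C₂ * (-(x * ζ.im) - C₁ * |ζ.im|) := by
  have a := Complex.abs_im_le_norm ζ
  have b : x * ζ.im ≤ (5 * C₂ + 2 * C₁ + 3) * |ζ.im| :=
    (le_abs_self _).trans (by rw [abs_mul]; gcongr)
  have c := abs_nonneg ζ.im
  unfold om0 lam
  rw [div_mul_eq_mul_div, one_mul, le_div_iff₀ (by positivity)]
  nlinarith [mul_nonneg c1 c, mul_nonneg c2 c, mul_le_mul_of_nonneg_left a c1,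
    mul_le_mul_of_nonneg_left a c2]

theorem cone_omp {C₁ C₂ x a : ℝ} (c1 : 0 ≤ C₁) (c2 : 0 ≤ C₂) (hx : |x| ≤ 5 * C₂ + 2 * C₁ + 3)
    (ha : a = 1 ∨ a = -1) (hg : 3 * C₂ + 2 * C₁ + 2 ≤ -(a * x)) (ζ : ℂ) :
    omp a ζ ≤ lam C₁ C₂ * (-(x * ζ.im) - C₁ * |ζ.im|) := by
  unfold omp
  split_ifs with h
  · have e : |ζ.im| = a * ζ.im := by
      rcases ha with rfl | rfl
      · rw [one_mul] at h ⊢; exact abs_of_nonneg h
      · rw [neg_one_mul] at h ⊢; exact abs_of_nonpos (by linarith)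
    have e2 : -(x * ζ.im) = -(a * x) * (a * ζ.im) := by rcases ha with rfl | rfl <;> ring
    rw [e, e2]
    unfold lam
    rw [div_mul_eq_mul_div, one_mul, le_div_iff₀ (by positivity)]
    have := norm_nonneg ζ
    nlinarith [mul_le_mul_of_nonneg_right hg h, mul_nonneg c1 this, mul_nonneg c2 this]
  · exact cone_om0 c1 c2 hx ζ

theorem om0_bd (ζ : ℂ) : |om0 ζ| ≤ 2 * ‖ζ‖ := by
  unfold om0; rw [abs_neg, abs_of_nonneg (by positivity)]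

theorem omp_bd {a : ℝ} (ha : a = 1 ∨ a = -1) (ζ : ℂ) : |omp a ζ| ≤ 2 * ‖ζ‖ := by
  unfold omp
  split_ifs with h
  · have b := abs_le.1 (Complex.abs_im_le_norm ζ)
    have := norm_nonneg ζ
    rcases ha with rfl | rfl <;> rw [abs_le] <;> constructor <;> linarith
  · exact om0_bd ζ

theorem omg_bd (k i : ℕ) (ζ : ℂ) : |omg k i ζ| ≤ 2 * ‖ζ‖ := by
  unfold omg
  split_ifs
  · exact omp_bd (Or.inl rfl) ζ
  · exact omp_bd (Or.inr rfl) ζ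
  · exact om0_bd ζ

/-- **the top of the seam**: `CE n i`, `ZE n i` are the clean and the true pair at the time `i` -/
theorem top (hE : Spec_E2) (𝒰 : Ultrafilter ℕ) {D : ℕ → Md} {ς ε h w K' S : ℕ → ℝ}
    {K C₁ C₂ A : ℝ} {CE ZE : ℕ → ℤ → C2 → C2} (c1 : 0 ≤ C₁) (c2 : 0 ≤ C₂)
    (mach : ∀ᶠ n in (𝒰 : Filter ℕ), Mach K (ς n) (ε n) (D n) ∧ (D n).C₂ = C₂ ∧ (D n).ω ≤ 1 ∧
      3 * C₂ + 2 * C₁ + 3 ≤ (D n).G)
    (gr : Gr 𝒰 A h w K' S)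
    (gap : ∀ (i : ℕ → ℤ) (om : ℂ → ℝ), (∀ ζ, |om ζ| ≤ 2 * ‖ζ‖) →
      (∀ᶠ n in (𝒰 : Filter ℕ), (D n).Gap (i n) ∧ Cen C₁ C₂ (D n) (i n) ∧
        ∀ ζ, om ζ ≤ lam C₁ C₂ * (-((D n).ω * i n * ζ.im) - C₁ * |ζ.im|)) →
      Gap 𝒰 h w K' S om (fun n => CE n (i n)) fun n => ZE n (i n))
    (farG : ∀ (j : ℕ) (i i' : ℕ → ℤ), (∀ᶠ n in (𝒰 : Filter ℕ), j ≤ (D n).M ∧ (D n).lo j ≤ i n ∧
        i n ≤ i' n ∧ i' n ≤ (D n).hi j ∧ Cen C₁ C₂ (D n) (i n) ∧ Cen C₁ C₂ (D n) (i' n)) →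
      Far 𝒰 h K' (fun n => CE n (i n)) (fun n => ZE n (i n)) (fun n => CE n (i' n))
        fun n => ZE n (i' n))
    (obs : ∀ c : ℕ, (∀ᶠ n in (𝒰 : Filter ℕ), c < (D n).M ∧ Cen C₁ C₂ (D n) ((D n).hi c) ∧
        Cen C₁ C₂ (D n) ((D n).lo (c + 1))) →
      Far 𝒰 h K' (fun n => CE n ((D n).hi c)) (fun n => ZE n ((D n).hi c))
        (fun n => CE n ((D n).lo (c + 1))) (fun n => ZE n ((D n).lo (c + 1))) ∨
      NearE 𝒰 A h K' (fun n => CE n ((D n).hi c)) (fun n => ZE n ((D n).hi c))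
        (fun n => CE n ((D n).lo (c + 1))) fun n => ZE n ((D n).lo (c + 1))) :
    ∃ i : ℕ → ℤ, (∀ᶠ n in (𝒰 : Filter ℕ), (D n).Gap (i n) ∧ Cen C₁ C₂ (D n) (i n)) ∧
      ∃ x μ M : ℝ, |x| ≤ 1 ∧ 0 < μ ∧ μ ≤ 1 / 10 ∧ 0 < M ∧ ∀ᶠ n in (𝒰 : Filter ℕ), ∃ F : C2 → C2,
        (∀ q ∈ Rc x μ (-(5 / 4)) μ ×ˢ ball (0 : ℂ) μ, AnalyticAt ℂ F q ∧ ‖F q‖ ≤ M ∧
          (F q).1.im ≤ -(1 / M) ∧ (F q).2.im ≤ -(1 / M)) ∧
        F =ᶠ[𝓝 ((x : ℂ) - 6 / 5 * I, (0 : ℂ))] ZE n (i n) := by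
  set g := 3 * C₂ + 2 * C₁ + 2 with hg
  have g0 : 0 < g := by positivity
  let P : ℕ → ℤ → ℕ → ℝ → Prop := fun n i j a => j ≤ (D n).M ∧ (D n).lo j ≤ i ∧ i ≤ (D n).hi j ∧
    g ≤ a * ((D n).ω * i) ∧ a * ((D n).ω * i) ≤ g + 2 * C₂ + 1
  have ex : ∀ n, ∃ (iL iR : ℤ) (jL jR : ℕ), (Mach K (ς n) (ε n) (D n) ∧ (D n).C₂ = C₂ ∧
      (D n).ω ≤ 1 ∧ 3 * C₂ + 2 * C₁ + 3 ≤ (D n).G) → P n iL jL (-1) ∧ P n iR jR 1 := fun n => by
    by_cases H : Mach K (ς n) (ε n) (D n) ∧ (D n).C₂ = C₂ ∧ (D n).ω ≤ 1 ∧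
      3 * C₂ + 2 * C₁ + 3 ≤ (D n).G
    · obtain ⟨⟨i, j, a1, a2, a3, a4, a5⟩, i', j', b1, b2, b3, b4, b5⟩ :=
        ends (g := g) H.1 g0 H.2.2.1 (H.2.1 ▸ c2) (by linarith [H.2.2.2])
      rw [H.2.1] at a5 b5
      exact ⟨i, i', j, j', fun _ => ⟨⟨a1, a2, a3, by linarith, by linarith⟩,
        b1, b2, b3, by linarith, by linarith⟩⟩
    · exact ⟨0, 0, 0, 0, fun h => absurd h H⟩
  choose iL iR jL jR hP using ex
  have bd : ∀ᶠ n in (𝒰 : Filter ℕ), (D n).M ≤ ⌈K⌉₊ := mach.mono fun n H => by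
    exact_mod_cast H.1.num.MK.trans (Nat.le_ceil K)
  obtain ⟨a, ha⟩ := const_of_bdd 𝒰 jL _ ((mach.and bd).mono fun n H => (hP n H.1).1.1.trans H.2)
  obtain ⟨b, hb⟩ := const_of_bdd 𝒰 jR _ ((mach.and bd).mono fun n H => (hP n H.1).2.1.trans H.2)
  have key : ∀ᶠ n in (𝒰 : Filter ℕ), Num K (ς n) (ε n) (D n) ∧ a ≤ b ∧
      En (D n) (iL n) (iR n) a (b - a) ∧ g ≤ -((D n).ω * iL n) ∧ g ≤ (D n).ω * iR n ∧
      ∀ i : ℤ, iL n ≤ i → i ≤ iR n → Cen C₁ C₂ (D n) i := by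
    filter_upwards [mach, ha, hb] with n H e1 e2
    obtain ⟨⟨a1, a2, a3, a4, a5⟩, b1, b2, b3, b4, b5⟩ := hP n H
    rw [e1] at a1 a2 a3
    rw [e2] at b1 b2 b3
    have N := H.1.num
    have ω0 := N.ω0.1
    have lr : iL n < iR n := by
      have : (D n).ω * iL n < (D n).ω * iR n := by linarith
      exact_mod_cast lt_of_mul_lt_mul_left this ω0.le
    have ab : a ≤ b := by
      by_contra q
      have := mono_hi N a (not_le.1 q) a1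
      omega
    have e : a + (b - a) = b := by omega
    refine ⟨N, ab, ⟨e.symm ▸ b1, a2, a3, e.symm ▸ b2, e.symm ▸ b3, lr.le⟩, by linarith, by linarith,
      fun i l r => ?_⟩
    have l' : (D n).ω * iL n ≤ (D n).ω * i := mul_le_mul_of_nonneg_left (by exact_mod_cast l) ω0.le
    have r' : (D n).ω * i ≤ (D n).ω * iR n := mul_le_mul_of_nonneg_left (by exact_mod_cast r) ω0.le
    exact abs_le.2 ⟨by linarith, by linarith⟩
  set d := b - a with hd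
  let s : ℕ → ℕ → ℤ := fun i n => st (D n) (iL n) (iR n) a d i
  have sg : ∀ i ≤ 2 * d + 1, ∀ᶠ n in (𝒰 : Filter ℕ), (D n).Gap (s i n) ∧ Cen C₁ C₂ (D n) (s i n) :=
    fun i hi => key.mono fun n ⟨N, _, E, _, _, c⟩ =>
      ⟨⟨a + i / 2, by have := E.M; omega, st_gap N E hi⟩, c _ (st_in N E hi).1 (st_in N E hi).2⟩
  refine ⟨s 0, sg 0 (by omega), hE 𝒰 (2 * d + 1) 0 A h w K' S (fun i n => CE n (s i n))
    (fun i n => ZE n (s i n)) (by omega) (by omega) gr (fun i hi => gap _ _ (omg_bd _ _) ?_)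
    fun c hc => ?_⟩
  · filter_upwards [key, sg i hi] with n ⟨_, _, _, gl, gr, _⟩ ⟨G1, G2⟩
    refine ⟨G1, G2, fun ζ => ?_⟩
    unfold omg
    split_ifs with h1 h2
    · refine cone_omp c1 c2 G2 (Or.inl rfl) ?_ ζ
      have : s i n = iL n := by simp [s, st, h1]
      rw [this]; linarith
    · refine cone_omp c1 c2 G2 (Or.inr rfl) ?_ ζ
      have : s i n = iR n := by simp [s, st, h2]
      rw [this]; linarith
    · exact cone_om0 c1 c2 G2 ζ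
  · obtain ⟨e, rfl | rfl⟩ := Nat.even_or_odd' c
    · refine Or.inl (farG (a + e) (s (2 * e)) (s (2 * e + 1)) ?_)
      filter_upwards [key, sg (2 * e) (by omega), sg (2 * e + 1) (by omega)] with n
        ⟨N, _, E, _⟩ G1 G2
      obtain ⟨u1, u2, u3⟩ := st_even N E (b := e) (by omega)
      exact ⟨by have := E.M; omega, u1, u2, u3, G1.2, G2.2⟩
    · have e1 : ∀ n, s (2 * e + 1) n = (D n).hi (a + e) := fun n => (st_odd (by omega)).1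
      have e2 : ∀ n, s (2 * e + 1 + 1) n = (D n).lo (a + e + 1) := fun n => (st_odd (by omega)).2
      simp only [e1, e2]
      refine obs (a + e) ?_
      filter_upwards [key, sg (2 * e + 1) (by omega), sg (2 * e + 1 + 1) (by omega)] with n
        ⟨N, _, E, _⟩ G1 G2
      exact ⟨by have := E.M; omega, e1 n ▸ G1.2, e2 n ▸ G2.2⟩

end Vale.Agent.P097F.SE
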